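import Mathlib.Analysis.Complex.Basic
import Mathlib.Topology.Order.Compact

/-!
# P155, block SW: bounded open sets put in a row

`row_exists`: finitely many nonempty bounded open sets of the plane can be translated so that
they are pairwise disjoint and consecutive ones touch (leftmost point of the next one = rightmost
point of the previous one).
-/

namespace Vale.Agent.P155.SW12

open Complex

/-- extreme points of a bounded open nonempty set in the horizontal direction. -/
theorem extreme {V : Set ℂ} (ho : IsOpen V) (hb : Bornology.IsBounded V) (hne : V.Nonempty) :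
    ∃ a b : ℂ, a ∈ frontier V ∧ b ∈ frontier V ∧ (∀ z ∈ V, a.re < z.re) ∧
      (∀ z ∈ V, z.re < b.re) := by
  have hc : IsCompact (closure V) := hb.isCompact_closure
  have hcne : (closure V).Nonempty := hne.closure
  obtain ⟨a, ha, hamin⟩ := hc.exists_isMinOn hcne Complex.continuous_re.continuousOn
  obtain ⟨b, hb', hbmax⟩ := hc.exists_isMaxOn hcne Complex.continuous_re.continuousOn
  have hlt : ∀ z ∈ V, a.re < z.re := by
    intro z hz
    obtain ⟨ε, hε, hball⟩ := Metric.isOpen_iff.1 ho z hz
    have hmem : z - ((ε / 2 : ℝ) : ℂ) ∈ V := by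
      apply hball
      rw [Metric.mem_ball, dist_eq_norm]
      have : z - ((ε / 2 : ℝ) : ℂ) - z = -((ε / 2 : ℝ) : ℂ) := by ring
      rw [this, norm_neg, Complex.norm_real, Real.norm_eq_abs, abs_of_pos (by positivity)]
      linarith
    have h1 := isMinOn_iff.1 hamin _ (subset_closure hmem)
    simp only [sub_re, ofReal_re] at h1
    linarith
  have hgt : ∀ z ∈ V, z.re < b.re := by
    intro z hz
    obtain ⟨ε, hε, hball⟩ := Metric.isOpen_iff.1 ho z hz
    have hmem : z + ((ε / 2 : ℝ) : ℂ) ∈ V := by
      apply hball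
      rw [Metric.mem_ball, dist_eq_norm]
      have : z + ((ε / 2 : ℝ) : ℂ) - z = ((ε / 2 : ℝ) : ℂ) := by ring
      rw [this, Complex.norm_real, Real.norm_eq_abs, abs_of_pos (by positivity)]
      linarith
    have h1 := isMaxOn_iff.1 hbmax _ (subset_closure hmem)
    simp only [add_re, ofReal_re] at h1
    linarith
  refine ⟨a, b, ?_, ?_, hlt, hgt⟩
  · rw [ho.frontier_eq]
    exact ⟨ha, fun h => lt_irrefl _ (hlt a h)⟩
  · rw [ho.frontier_eq]
    exact ⟨hb', fun h => lt_irrefl _ (hgt b h)⟩

/-- the frontier of a translate. -/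
theorem frontier_trans (V : Set ℂ) (c z : ℂ) :
    z ∈ frontier {w | w - c ∈ V} ↔ z - c ∈ frontier V := by
  have h := (Homeomorph.subRight c).preimage_frontier V
  have h' : frontier {w | w - c ∈ V} = {w | w - c ∈ frontier V} := h.symm
  rw [h']
  rfl

theorem row_exists {m : ℕ} (V : Fin m → Set ℂ) (ho : ∀ i, IsOpen (V i))
    (hb : ∀ i, Bornology.IsBounded (V i)) (hne : ∀ i, (V i).Nonempty) :
    ∃ c : Fin m → ℂ,
      (∀ i j, i ≠ j → Disjoint {z | z - c i ∈ V i} {z | z - c j ∈ V j}) ∧
      ∀ i j : Fin m, (j : ℕ) = i + 1 →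
        (frontier {z | z - c i ∈ V i} ∩ frontier {z | z - c j ∈ V j}).Nonempty := by
  choose a b ha hb' hlt hgt using fun i => extreme (ho i) (hb i) (hne i)
  have hab : ∀ i, (a i).re ≤ (b i).re := fun i => by
    obtain ⟨z, hz⟩ := hne i
    exact ((hlt i z hz).trans (hgt i z hz)).le
  let a' : ℕ → ℂ := fun n => if h : n < m then a ⟨n, h⟩ else 0
  let b' : ℕ → ℂ := fun n => if h : n < m then b ⟨n, h⟩ else 0
  let c' : ℕ → ℂ := fun n => ∑ k ∈ Finset.range n, (b' k - a' (k + 1))
  have hc' : ∀ n, c' (n + 1) = c' n + (b' n - a' (n + 1)) := fun n => by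
    simp only [c', Finset.sum_range_succ]
  have ha'i : ∀ i : Fin m, a' i = a i := fun i => by simp [a', i.2]
  have hb'i : ∀ i : Fin m, b' i = b i := fun i => by simp [b', i.2]
  have hab' : ∀ n, (a' n).re ≤ (b' n).re := fun n => by
    by_cases h : n < m
    · simp only [a', b', h, dif_pos]
      exact hab ⟨n, h⟩
    · simp [a', b', h]
  -- the right end of piece `n` lies to the left of the left end of any later piece
  have hmono : ∀ n k, (b' n + c' n).re ≤ (a' (n + 1 + k) + c' (n + 1 + k)).re := by
    intro n k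
    induction k with
    | zero =>
      rw [add_zero, hc']
      have : a' (n + 1) + (c' n + (b' n - a' (n + 1))) = b' n + c' n := by ring
      rw [this]
    | succ k ih =>
      have h1 : n + 1 + (k + 1) = (n + 1 + k) + 1 := by ring
      rw [h1, hc']
      have h2 : a' (n + 1 + k + 1) + (c' (n + 1 + k) + (b' (n + 1 + k) - a' (n + 1 + k + 1)))
          = b' (n + 1 + k) + c' (n + 1 + k) := by ring
      rw [h2]
      refine ih.trans ?_
      simp only [add_re]
      linarith [hab' (n + 1 + k)]
  have key : ∀ i j : Fin m, i < j →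
      Disjoint {z | z - c' i ∈ V i} {z | z - c' j ∈ V j} := by
    intro i j hij
    rw [Set.disjoint_left]
    intro z hzi hzj
    have h1 := hgt i _ hzi
    have h2 := hlt j _ hzj
    obtain ⟨k, hk⟩ : ∃ k : ℕ, (j : ℕ) = i + 1 + k := ⟨j - (i + 1), by
      have : (i : ℕ) < j := hij
      omega⟩
    have h3 := hmono i k
    rw [← hk, hb'i, ha'i] at h3
    simp only [sub_re, add_re] at h1 h2 h3
    linarith
  refine ⟨fun i => c' i, ?_, ?_⟩
  · intro i j hij
    rcases lt_or_gt_of_ne hij with h | h
    · exact key i j h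
    · exact (key j i h).symm
  · intro i j hij
    refine ⟨b i + c' i, ?_, ?_⟩
    · rw [frontier_trans]
      simpa using hb' i
    · rw [frontier_trans]
      have h1 : b i + c' i - c' j = a j := by
        have h2 : c' j = c' i + (b' i - a' j) := by
          rw [hij]
          exact hc' i
        rw [h2, hb'i, ha'i]
        ring
      rw [h1]
      exact ha j

end Vale.Agent.P155.SW12
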